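import Vale.Agent.P237.All.Parts
import Vale.Agent.P237.All.Finite.Cells.R4
import Vale.Agent.P237.All.Finite.Cells.R5
import Vale.Agent.P237.All.Finite.Cells.R6
import Vale.Agent.P237.All.Finite.Cells.R7
import Vale.Agent.P237.All.Finite.Cells.R8
import Vale.Agent.P237.All.Finite.Cells.R9
import Vale.Agent.P237.All.Finite.Cells.R10
import Vale.Agent.P237.All.Finite.Cells.R11
import Vale.Agent.P237.All.Finite.Cells.R12
import Vale.Agent.P237.All.Finite.Cells.R13
import Vale.Agent.P237.All.Finite.Cells.R14
import Vale.Agent.P237.All.Finite.Cells.R15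
import Vale.Agent.P237.All.Finite.Cells.R16
import Vale.Agent.P237.All.Finite.Cells.R17
import Vale.Agent.P237.All.Finite.Cells.R18
import Vale.Agent.P237.All.Finite.Cells.R19
import Vale.Agent.P237.All.Finite.Low.M20
import Vale.Agent.P237.All.Finite.Low.M21
import Vale.Agent.P237.All.Finite.Low.M22
import Vale.Agent.P237.All.Finite.Low.M23
import Vale.Agent.P237.All.Finite.Low.M24
import Vale.Agent.P237.All.Finite.Low.M25
import Vale.Agent.P237.All.Finite.Low.M26
import Vale.Agent.P237.All.Finite.Low.M27
import Vale.Agent.P237.All.Finite.Low.M28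
import Vale.Agent.P237.All.Finite.Low.M29

/-!
P237, every dimension: the excesses below `5/2` in the dimensions below thirty.
-/

noncomputable section

namespace Vale.Agent.P237.All.Transport

/-- The bound on `(kTiny p, 5/2)` in the dimensions below thirty. -/
theorem boundOn_small {p : ℕ} (hp : 3 ≤ p) (hp' : p ≤ 28) :
    BoundOn p (Set.Ioo (kTiny p) (5 / 2)) := by
  interval_cases p
  · refine boundOn_of_range Finite.rangeOk_four ?_ ?_
    · rw [kTiny_small (by norm_num)]; norm_num [Tiny.smallK]
    · norm_num
  · refine boundOn_of_range Finite.rangeOk_five ?_ ?_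
    · rw [kTiny_small (by norm_num)]; norm_num [Tiny.smallK]
    · norm_num
  · refine boundOn_of_range Finite.rangeOk_six ?_ ?_
    · rw [kTiny_small (by norm_num)]; norm_num [Tiny.smallK]
    · norm_num
  · refine boundOn_of_range Finite.rangeOk_seven ?_ ?_
    · rw [kTiny_small (by norm_num)]; norm_num [Tiny.smallK]
    · norm_num
  · refine boundOn_of_range Finite.rangeOk_eight ?_ ?_
    · rw [kTiny_small (by norm_num)]; norm_num [Tiny.smallK]
    · norm_num
  · refine boundOn_of_range Finite.rangeOk_nine ?_ ?_
    · rw [kTiny_small (by norm_num)]; norm_num [Tiny.smallK]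
    · norm_num
  · refine boundOn_of_range Finite.rangeOk_ten ?_ ?_
    · rw [kTiny_small (by norm_num)]; norm_num [Tiny.smallK]
    · norm_num
  · refine boundOn_of_range Finite.rangeOk_eleven ?_ ?_
    · rw [kTiny_small (by norm_num)]; norm_num [Tiny.smallK]
    · norm_num
  · refine boundOn_of_range Finite.rangeOk_twelve ?_ ?_
    · rw [kTiny_small (by norm_num)]; norm_num [Tiny.smallK]
    · norm_num
  · refine boundOn_of_range Finite.rangeOk_thirteen ?_ ?_
    · rw [kTiny_small (by norm_num)]; norm_num [Tiny.smallK]
    · norm_num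
  · refine boundOn_of_range Finite.rangeOk_fourteen ?_ ?_
    · rw [kTiny_small (by norm_num)]; norm_num [Tiny.smallK]
    · norm_num
  · refine boundOn_of_range Finite.rangeOk_fifteen ?_ ?_
    · rw [kTiny_small (by norm_num)]; norm_num [Tiny.smallK]
    · norm_num
  · refine boundOn_of_range Finite.rangeOk_sixteen ?_ ?_
    · rw [kTiny_small (by norm_num)]; norm_num [Tiny.smallK]
    · norm_num
  · refine boundOn_of_range Finite.rangeOk_seventeen ?_ ?_
    · rw [kTiny_small (by norm_num)]; norm_num [Tiny.smallK]
    · norm_num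
  · refine boundOn_of_range Finite.rangeOk_eighteen ?_ ?_
    · rw [kTiny_small (by norm_num)]; norm_num [Tiny.smallK]
    · norm_num
  · refine boundOn_of_range Finite.rangeOk_nineteen ?_ ?_
    · rw [kTiny_small (by norm_num)]; norm_num [Tiny.smallK]
    · norm_num
  · refine boundOn_of_range Finite.rangeOk_low20 ?_ ?_
    · rw [kTiny_small (by norm_num)]; norm_num [Tiny.smallK]
    · norm_num
  · refine boundOn_of_range Finite.rangeOk_low21 ?_ ?_
    · rw [kTiny_small (by norm_num)]; norm_num [Tiny.smallK]
    · norm_num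
  · refine boundOn_of_range Finite.rangeOk_low22 ?_ ?_
    · rw [kTiny_small (by norm_num)]; norm_num [Tiny.smallK]
    · norm_num
  · refine boundOn_of_range Finite.rangeOk_low23 ?_ ?_
    · rw [kTiny_small (by norm_num)]; norm_num [Tiny.smallK]
    · norm_num
  · refine boundOn_of_range Finite.rangeOk_low24 ?_ ?_
    · rw [kTiny_small (by norm_num)]; norm_num [Tiny.smallK]
    · norm_num
  · refine boundOn_of_range Finite.rangeOk_low25 ?_ ?_
    · rw [kTiny_small (by norm_num)]; norm_num [Tiny.smallK]
    · norm_num
  · refine boundOn_of_range Finite.rangeOk_low26 ?_ ?_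
    · rw [kTiny_small (by norm_num)]; norm_num [Tiny.smallK]
    · norm_num
  · refine boundOn_of_range Finite.rangeOk_low27 ?_ ?_
    · rw [kTiny_small (by norm_num)]; norm_num [Tiny.smallK]
    · norm_num
  · refine boundOn_of_range Finite.rangeOk_low28 ?_ ?_
    · rw [kTiny_small (by norm_num)]; norm_num [Tiny.smallK]
    · norm_num
  · refine boundOn_of_range Finite.rangeOk_low29 ?_ ?_
    · rw [kTiny_small (by norm_num)]; norm_num [Tiny.smallK]
    · norm_num

end Vale.Agent.P237.All.Transport
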