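import Vale.Agent.P237.All.Parts
import Vale.Agent.P237.All.Finite.Low.M30
import Vale.Agent.P237.All.Finite.Low.M31
import Vale.Agent.P237.All.Finite.Low.M32
import Vale.Agent.P237.All.Finite.Low.M33
import Vale.Agent.P237.All.Finite.Low.M34
import Vale.Agent.P237.All.Finite.Low.M35
import Vale.Agent.P237.All.Finite.Low.M38
import Vale.Agent.P237.All.Finite.Low.M39
import Vale.Agent.P237.All.Finite.Low.M40
import Vale.Agent.P237.All.Finite.Low.M41
import Vale.Agent.P237.All.Finite.Low.M42
import Vale.Agent.P237.All.Finite.Low.M43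
import Vale.Agent.P237.All.Finite.Low.M44
import Vale.Agent.P237.All.Finite.Low.M45
import Vale.Agent.P237.All.Finite.Low.M46
import Vale.Agent.P237.All.Finite.Cells.R36
import Vale.Agent.P237.All.Finite.Cells.R37

/-!
P237, every dimension: the excesses below `4/5` from dimension thirty on.
-/

noncomputable section

namespace Vale.Agent.P237.All.Transport

/-- The bound on `(kTiny p, 4/5)` from dimension thirty on. -/
theorem boundOn_mediumSmall {p : ℕ} (hp : 29 ≤ p) (hp' : p ≤ 45) :
    BoundOn p (Set.Ioo (kTiny p) (4 / 5)) := by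
  interval_cases p
  · refine boundOn_of_range Finite.rangeOk_low30 ?_ ?_
    · rw [kTiny_mid (by norm_num) (by norm_num)]; norm_num [Tiny.midKOf, Tiny.midK]
    · norm_num
  · refine boundOn_of_range Finite.rangeOk_low31 ?_ ?_
    · rw [kTiny_mid (by norm_num) (by norm_num)]; norm_num [Tiny.midKOf, Tiny.midK]
    · norm_num
  · refine boundOn_of_range Finite.rangeOk_low32 ?_ ?_
    · rw [kTiny_mid (by norm_num) (by norm_num)]; norm_num [Tiny.midKOf, Tiny.midK]
    · norm_num
  · refine boundOn_of_range Finite.rangeOk_low33 ?_ ?_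
    · rw [kTiny_mid (by norm_num) (by norm_num)]; norm_num [Tiny.midKOf, Tiny.midK]
    · norm_num
  · refine boundOn_of_range Finite.rangeOk_low34 ?_ ?_
    · rw [kTiny_mid (by norm_num) (by norm_num)]; norm_num [Tiny.midKOf, Tiny.midK]
    · norm_num
  · refine boundOn_of_range Finite.rangeOk_low35 ?_ ?_
    · rw [kTiny_mid (by norm_num) (by norm_num)]; norm_num [Tiny.midKOf, Tiny.midK]
    · norm_num
  · refine boundOn_of_range Finite.rangeOk_thirtysix ?_ ?_
    · rw [kTiny_mid (by norm_num) (by norm_num)]; norm_num [Tiny.midKOf, Tiny.midK]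
    · norm_num
  · refine boundOn_of_range Finite.rangeOk_thirtyseven ?_ ?_
    · rw [kTiny_mid (by norm_num) (by norm_num)]; norm_num [Tiny.midKOf, Tiny.midK]
    · norm_num
  · refine boundOn_of_range Finite.rangeOk_low38 ?_ ?_
    · rw [kTiny_mid (by norm_num) (by norm_num)]; norm_num [Tiny.midKOf, Tiny.midK]
    · norm_num
  · refine boundOn_of_range Finite.rangeOk_low39 ?_ ?_
    · rw [kTiny_mid (by norm_num) (by norm_num)]; norm_num [Tiny.midKOf, Tiny.midK]
    · norm_num
  · refine boundOn_of_range Finite.rangeOk_low40 ?_ ?_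
    · rw [kTiny_mid (by norm_num) (by norm_num)]; norm_num [Tiny.midKOf, Tiny.midK]
    · norm_num
  · refine boundOn_of_range Finite.rangeOk_low41 ?_ ?_
    · rw [kTiny_mid (by norm_num) (by norm_num)]; norm_num [Tiny.midKOf, Tiny.midK]
    · norm_num
  · refine boundOn_of_range Finite.rangeOk_low42 ?_ ?_
    · rw [kTiny_mid (by norm_num) (by norm_num)]; norm_num [Tiny.midKOf, Tiny.midK]
    · norm_num
  · refine boundOn_of_range Finite.rangeOk_low43 ?_ ?_
    · rw [kTiny_mid (by norm_num) (by norm_num)]; norm_num [Tiny.midKOf, Tiny.midK]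
    · norm_num
  · refine boundOn_of_range Finite.rangeOk_low44 ?_ ?_
    · rw [kTiny_mid (by norm_num) (by norm_num)]; norm_num [Tiny.midKOf, Tiny.midK]
    · norm_num
  · refine boundOn_of_range Finite.rangeOk_low45 ?_ ?_
    · rw [kTiny_mid (by norm_num) (by norm_num)]; norm_num [Tiny.midKOf, Tiny.midK]
    · norm_num
  · refine boundOn_of_range Finite.rangeOk_low46 ?_ ?_
    · rw [kTiny_mid (by norm_num) (by norm_num)]; norm_num [Tiny.midKOf, Tiny.midK]
    · norm_num

end Vale.Agent.P237.All.Transport
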