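import Vale.Agent.P237.All.Parts
import Vale.Agent.P237.All.Finite.Cells.Top4
import Vale.Agent.P237.All.Finite.Cells.Top5
import Vale.Agent.P237.All.Finite.Cells.Top6
import Vale.Agent.P237.All.Finite.Cells.Top7
import Vale.Agent.P237.All.Finite.W.Mid

/-!
P237, every dimension: the excesses from `5/2` to `17` up to dimension forty-four.
-/

noncomputable section

namespace Vale.Agent.P237.All.Transport

/-- The bound on `[5/2, 17]` in the dimensions below forty-five. -/
theorem boundOn_topSmall {p : ℕ} (hp : 3 ≤ p) (hp' : p ≤ 43) :
    BoundOn p (Set.Icc (5 / 2) 17) := by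
  refine boundOn_of_top hp ?_
  rcases le_or_gt 7 p with h | h
  · exact Finite.W.rangeOk_mid h hp'
  · interval_cases p
    · exact Finite.rangeOk_top_four
    · exact Finite.rangeOk_top_five
    · exact Finite.rangeOk_top_six
    · exact Finite.rangeOk_top_seven

end Vale.Agent.P237.All.Transport
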