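import Vale.Agent.P237.All.Finite.Low.M47
import Vale.Agent.P237.All.Finite.Low.M48
import Vale.Agent.P237.All.Finite.Low.M49
import Vale.Agent.P237.All.Finite.Low.M50
import Vale.Agent.P237.All.Finite.Low.M51
import Vale.Agent.P237.All.Finite.Low.M52
import Vale.Agent.P237.All.Finite.Low.M53
import Vale.Agent.P237.All.Finite.Low.M54
import Vale.Agent.P237.All.Complete.Low
import Vale.Agent.P237.All.Complete.Top
import Vale.Agent.P237.All.Complete.Small

/-!
P237, every dimension: the bounds at every common integral.
-/

noncomputable section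

namespace Vale.Agent.P237.All.Transport

/-- Cells starting below the direct bound of the dimensions from fifty-two on. -/
theorem boundOn_of_low_range {p : ℕ} {a b : ℚ} {s : ℝ} (hp : 51 ≤ p) (h : Finite.RangeOk p a b)
    (ha : (a : ℝ) ≤ 67 / 5000) (hs : s ≤ (b : ℝ)) : BoundOn p (Set.Ioo (kTiny p) s) :=
  fun k hk => by
    rcases le_or_gt k (67 / 5000) with h' | h'
    · exact boundOn_low hp k h'
    · exact h k (ha.trans h'.le) (hk.2.trans_le hs)

/-- The bound on `(kTiny p, 4/5)` from dimension forty-eight to fifty-five. -/
theorem boundOn_upperSmall {p : ℕ} (hp : 46 ≤ p) (hp' : p ≤ 53) :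
    BoundOn p (Set.Ioo (kTiny p) (4 / 5)) := by
  interval_cases p
  · refine boundOn_of_range Finite.rangeOk_low47 ?_ ?_
    · rw [kTiny_mid (by norm_num) (by norm_num)]; norm_num [Tiny.midKOf, Tiny.midK]
    · norm_num
  · refine boundOn_of_range Finite.rangeOk_low48 ?_ ?_
    · rw [kTiny_mid (by norm_num) (by norm_num)]; norm_num [Tiny.midKOf, Tiny.midK]
    · norm_num
  · refine boundOn_of_range Finite.rangeOk_low49 ?_ ?_
    · rw [kTiny_mid (by norm_num) (by norm_num)]; norm_num [Tiny.midKOf, Tiny.midK]
    · norm_num
  · refine boundOn_of_range Finite.rangeOk_low50 ?_ ?_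
    · rw [kTiny_mid (by norm_num) (by norm_num)]; norm_num [Tiny.midKOf, Tiny.midK]
    · norm_num
  · refine boundOn_of_range Finite.rangeOk_low51 ?_ ?_
    · rw [kTiny_mid (by norm_num) (by norm_num)]; norm_num [Tiny.midKOf, Tiny.midK]
    · norm_num
  · exact boundOn_of_low_range (by norm_num) Finite.rangeOk_low52 (by norm_num) (by norm_num)
  · exact boundOn_of_low_range (by norm_num) Finite.rangeOk_low53 (by norm_num) (by norm_num)
  · exact boundOn_of_low_range (by norm_num) Finite.rangeOk_low54 (by norm_num) (by norm_num)

/-- The bound at every common integral above that of the ball. -/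
theorem bounds : BoundsStmt :=
  bounds_of_parts (fun _ h h' => boundOn_small h h') (fun _ h h' => boundOn_topSmall h h')
    (fun p h h' => by
      rcases le_or_gt p 45 with h'' | h''
      · exact boundOn_mediumSmall h h''
      · exact boundOn_upperSmall (by omega) h')
    (fun _ h => boundOn_wide h)

end Vale.Agent.P237.All.Transport
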