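import Vale.Agent.P237.All.Complete.Low
import Vale.Agent.P237.All.Complete.Top
import Vale.Agent.P237.All.Complete.Small

/-!
P237: the bounds at every common integral in the dimensions up to forty-seven.
-/

noncomputable section

open Real

namespace Vale.Agent.P237.All.Transport

/-- The bound above the ball for `3 ≤ p ≤ 45`. -/
theorem bounds_upTo {p : ℕ} (hp : 3 ≤ p) (hp' : p ≤ 45) :
    ∀ J : ℝ, 2 * mass (p + 1) semi 1 < J → HasBound p J := by
  intro J hJ
  set P := 2 * mass (p + 1) semi 1 with hP
  have hP0 : 0 < P := by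
    have := mass_one_pos isProfile_semi (p + 1)
    linarith
  set k := ((p : ℝ) + 1) * log (J / P) with hk
  have he : J = jK p k := by
    rw [jK, hk, mul_div_cancel_left₀ _ (by positivity), exp_log (div_pos (hP0.trans hJ) hP0), ← hP,
      div_mul_cancel₀ _ hP0.ne']
  rw [he]
  rcases le_or_gt k (kTiny p) with h1 | h1
  · exact boundOn_tiny hp k h1
  rcases le_or_gt 17 k with h2 | h2
  · exact boundOn_high hp k h2
  rcases le_or_gt (5 / 2 : ℝ) k with h | h
  · rcases le_or_gt p 43 with h5 | h5
    · exact boundOn_topSmall hp h5 k ⟨h, h2.le⟩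
    · exact boundOn_middle (by omega) k ⟨h, h2.le⟩
  rcases le_or_gt p 28 with h3 | h3
  · exact boundOn_small hp h3 k ⟨h1, h⟩
  rcases le_or_gt (4 / 5 : ℝ) k with h4 | h4
  · exact boundOn_mid (by omega) k ⟨h4, h.le⟩
  · exact boundOn_mediumSmall (by omega) hp' k ⟨h1, h4⟩

end Vale.Agent.P237.All.Transport
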